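import Claimed.Agent.R019.IsoId
import Mathlib.Algebra.MvPolynomial.Division
import Mathlib.Algebra.MvPolynomial.PDeriv
import Mathlib.RingTheory.Ideal.Quotient.Operations
import Mathlib.Tactic

set_option autoImplicit false

namespace Claimed.Agent.R019.H19

open Claimed.Agent.R019 MvPolynomial

noncomputable section

abbrev Rm (m : ℕ) := MvPolynomial (Fin (m+4)) ℂ
abbrev Tm (m : ℕ) := MvPolynomial (Fin (m+3)) ℂ

def i0 (m : ℕ) : Fin (m+4) := 0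
def i1 (m : ℕ) : Fin (m+4) := Fin.succ 0
def i2 (m : ℕ) : Fin (m+4) := Fin.succ (Fin.succ 0)
def i3 (m : ℕ) : Fin (m+4) := Fin.succ (Fin.succ (Fin.succ 0))

def j0 (m : ℕ) : Fin (m+3) := 0
def j1 (m : ℕ) : Fin (m+3) := Fin.succ 0
def j2 (m : ℕ) : Fin (m+3) := Fin.succ (Fin.succ 0)

def Fm (m : ℕ) : Rm m := Gf (X (i0 m)) (X (i1 m)) (X (i2 m)) (X (i3 m)) - 1

def phiFun (m : ℕ) : Fin (m+4) → Tm m :=
  Matrix.vecCons (Hf (X (j0 m)) (X (j1 m)))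
    (Matrix.vecCons (Uf (X (j0 m)) (X (j1 m)) (X (j2 m)))
      (Matrix.vecCons (Vf (X (j0 m)) (X (j1 m)) (X (j2 m)))
        (Matrix.vecCons (Wf (X (j0 m)) (X (j1 m)) (X (j2 m)))
          (fun i : Fin m => X (Fin.succ (Fin.succ (Fin.succ i)))))))

def phi (m : ℕ) : Rm m →ₐ[ℂ] Tm m := aeval (phiFun m)

theorem phi_i0 (m : ℕ) : phi m (X (i0 m)) = Hf (X (j0 m)) (X (j1 m)) := by
  simp [phi, phiFun, i0]

theorem phi_i1 (m : ℕ) : phi m (X (i1 m)) = Uf (X (j0 m)) (X (j1 m)) (X (j2 m)) := by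
  simp [phi, phiFun, i1]

theorem phi_i2 (m : ℕ) : phi m (X (i2 m)) = Vf (X (j0 m)) (X (j1 m)) (X (j2 m)) := by
  simp [phi, phiFun, i2]

theorem phi_i3 (m : ℕ) : phi m (X (i3 m)) = Wf (X (j0 m)) (X (j1 m)) (X (j2 m)) := by
  simp [phi, phiFun, i3]

theorem phi_rest (m : ℕ) (i : Fin m) :
    phi m (X (Fin.succ (Fin.succ (Fin.succ (Fin.succ i))))) =
      X (Fin.succ (Fin.succ (Fin.succ i))) := by
  simp [phi, phiFun]

theorem Hf_ne_zero (m : ℕ) : Hf (X (j0 m) : Tm m) (X (j1 m)) ≠ 0 := by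
  intro h
  have := congrArg (constantCoeff (R := ℂ)) h
  rw [map_Hf] at this
  simp [Hf, Pf, x0, y0, s0] at this

theorem Hf_reg (m : ℕ) (z : Tm m) (hz : Hf (X (j0 m) : Tm m) (X (j1 m)) * z = 0) : z = 0 :=
  (mul_eq_zero.mp hz).resolve_left (Hf_ne_zero m)

theorem phi_Fm (m : ℕ) : phi m (Fm m) = 0 := by
  simp only [Fm, map_sub, map_one, map_Gf, phi_i0, phi_i1, phi_i2, phi_i3]
  rw [Gf_T _ _ _ (Hf_reg m), sub_self]

abbrev Qm (m : ℕ) := Rm m ⧸ Ideal.span {Fm m}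

def mkQ (m : ℕ) : Rm m →ₐ[ℂ] Qm m := Ideal.Quotient.mkₐ ℂ (Ideal.span {Fm m})

theorem mkQ_Fm (m : ℕ) : mkQ m (Fm m) = 0 := by
  simp only [mkQ, Ideal.Quotient.mkₐ_eq_mk]
  exact Ideal.Quotient.eq_zero_iff_mem.mpr (Ideal.mem_span_singleton_self _)

def hq (m : ℕ) : Qm m := mkQ m (X (i0 m))
def uq (m : ℕ) : Qm m := mkQ m (X (i1 m))
def vq (m : ℕ) : Qm m := mkQ m (X (i2 m))
def wq (m : ℕ) : Qm m := mkQ m (X (i3 m))

theorem Gf_q (m : ℕ) : Gf (hq m) (uq m) (vq m) (wq m) = 1 := by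
  have := mkQ_Fm m
  simp only [Fm, map_sub, map_one, map_Gf] at this
  exact sub_eq_zero.mp this

theorem not_dvd_Fm (m : ℕ) : ¬ (X (i0 m) : Rm m) ∣ Fm m := by
  rintro ⟨g, hg⟩
  have := congrArg (constantCoeff (R := ℂ)) hg
  simp only [Fm, map_sub, map_one, map_Gf, map_mul, constantCoeff_X] at this
  simp [Gf, Pf, xf, yf, Sf] at this

theorem hq_reg (m : ℕ) (z : Qm m) (hz : hq m * z = 0) : z = 0 := by
  obtain ⟨f, rfl⟩ := Ideal.Quotient.mk_surjective z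
  have h1 : (X (i0 m) : Rm m) * f ∈ Ideal.span {Fm m} := by
    apply Ideal.Quotient.eq_zero_iff_mem.mp
    rw [map_mul]
    exact hz
  obtain ⟨g, hg⟩ := Ideal.mem_span_singleton.mp h1
  have hp : Prime (X (i0 m) : Rm m) := X_prime
  have h2 : (X (i0 m) : Rm m) ∣ Fm m * g := ⟨f, hg.symm⟩
  rcases hp.dvd_or_dvd h2 with h3 | ⟨k, rfl⟩
  · exact absurd h3 (not_dvd_Fm m)
  · have h4 : f = Fm m * k := by
      have : (X (i0 m) : Rm m) * f = X (i0 m) * (Fm m * k) := by rw [hg]; ring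
      exact mul_left_cancel₀ hp.ne_zero this
    apply Ideal.Quotient.eq_zero_iff_mem.mpr
    rw [h4]
    exact Ideal.mul_mem_right _ _ (Ideal.mem_span_singleton_self _)

def psiFun (m : ℕ) : Fin (m+3) → Qm m :=
  Matrix.vecCons (Xf (hq m) (uq m) (vq m) (wq m))
    (Matrix.vecCons (Yf (hq m) (uq m) (vq m) (wq m))
      (Matrix.vecCons (Tf (hq m) (uq m) (vq m) (wq m))
        (fun i : Fin m => mkQ m (X (Fin.succ (Fin.succ (Fin.succ (Fin.succ i))))))))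

def psi (m : ℕ) : Tm m →ₐ[ℂ] Qm m := aeval (psiFun m)

theorem psi_j0 (m : ℕ) : psi m (X (j0 m)) = Xf (hq m) (uq m) (vq m) (wq m) := by
  simp [psi, psiFun, j0]

theorem psi_j1 (m : ℕ) : psi m (X (j1 m)) = Yf (hq m) (uq m) (vq m) (wq m) := by
  simp [psi, psiFun, j1]

theorem psi_j2 (m : ℕ) : psi m (X (j2 m)) = Tf (hq m) (uq m) (vq m) (wq m) := by
  simp [psi, psiFun, j2]

theorem psi_rest (m : ℕ) (i : Fin m) :
    psi m (X (Fin.succ (Fin.succ (Fin.succ i)))) =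
      mkQ m (X (Fin.succ (Fin.succ (Fin.succ (Fin.succ i))))) := by
  simp [psi, psiFun]

def phiBar (m : ℕ) : Qm m →ₐ[ℂ] Tm m :=
  Ideal.Quotient.liftₐ (Ideal.span {Fm m}) (phi m) (by
    intro a ha
    obtain ⟨g, rfl⟩ := Ideal.mem_span_singleton.mp ha
    rw [map_mul, phi_Fm, zero_mul])

theorem phiBar_mkQ (m : ℕ) (f : Rm m) : phiBar m (mkQ m f) = phi m f := by
  simp only [phiBar, mkQ, Ideal.Quotient.mkₐ_eq_mk, Ideal.Quotient.liftₐ_apply]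
  exact Ideal.Quotient.lift_mk _ _ _

theorem phiBar_comp_psi (m : ℕ) : (phiBar m).comp (psi m) = AlgHom.id ℂ (Tm m) := by
  apply MvPolynomial.algHom_ext
  intro i
  simp only [AlgHom.comp_apply, AlgHom.id_apply]
  refine Fin.cases ?_ (fun i => ?_) i
  · change phiBar m (psi m (X (j0 m))) = X (j0 m)
    rw [psi_j0, map_Xf]
    simp only [hq, uq, vq, wq, phiBar_mkQ, phi_i0, phi_i1, phi_i2, phi_i3]
    exact Xf_T _ _ _ (Hf_reg m)
  refine Fin.cases ?_ (fun i => ?_) i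
  · change phiBar m (psi m (X (j1 m))) = X (j1 m)
    rw [psi_j1, map_Yf]
    simp only [hq, uq, vq, wq, phiBar_mkQ, phi_i0, phi_i1, phi_i2, phi_i3]
    exact Yf_T _ _ _ (Hf_reg m)
  refine Fin.cases ?_ (fun i => ?_) i
  · change phiBar m (psi m (X (j2 m))) = X (j2 m)
    rw [psi_j2, map_Tf]
    simp only [hq, uq, vq, wq, phiBar_mkQ, phi_i0, phi_i1, phi_i2, phi_i3]
    exact Tf_T _ _ _ (Hf_reg m)
  · rw [psi_rest, phiBar_mkQ, phi_rest]

theorem psi_comp_phiBar (m : ℕ) : (psi m).comp (phiBar m) = AlgHom.id ℂ (Qm m) := by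
  apply Ideal.Quotient.algHom_ext
  apply MvPolynomial.algHom_ext
  intro i
  change psi m (phiBar m (mkQ m (X i))) = mkQ m (X i)
  rw [phiBar_mkQ]
  refine Fin.cases ?_ (fun i => ?_) i
  · change psi m (phi m (X (i0 m))) = hq m
    rw [phi_i0, map_Hf, psi_j0, psi_j1]
    exact Hf_B _ _ _ _ (Gf_q m)
  refine Fin.cases ?_ (fun i => ?_) i
  · change psi m (phi m (X (i1 m))) = uq m
    rw [phi_i1, map_Uf, psi_j0, psi_j1, psi_j2]
    exact Uf_B _ _ _ _ (Gf_q m)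
  refine Fin.cases ?_ (fun i => ?_) i
  · change psi m (phi m (X (i2 m))) = vq m
    rw [phi_i2, map_Vf, psi_j0, psi_j1, psi_j2]
    exact Vf_B _ _ _ _ (Gf_q m) (hq_reg m)
  refine Fin.cases ?_ (fun i => ?_) i
  · change psi m (phi m (X (i3 m))) = wq m
    rw [phi_i3, map_Wf, psi_j0, psi_j1, psi_j2]
    exact Wf_B _ _ _ _ (Gf_q m) (hq_reg m)
  · rw [phi_rest, psi_rest]

def isoF (m : ℕ) : Qm m ≃ₐ[ℂ] Tm m :=
  AlgEquiv.ofAlgHom (phiBar m) (psi m) (phiBar_comp_psi m) (psi_comp_phiBar m)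

end

end Claimed.Agent.R019.H19
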