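import Mathlib.Algebra.MvPolynomial.CommRing
import Mathlib.Data.Complex.Basic
import Mathlib.Tactic.Ring
import Mathlib.Tactic.LinearCombination

set_option autoImplicit false

namespace Claimed.Agent.R019

variable {K L : Type*} [CommRing K] [CommRing L]
variable {Φ : Type*} [FunLike Φ K L] [RingHomClass Φ K L]

def Sf (h u v w : K) : K :=
  2*u^3*v + 3*u^4*w + h*(v^2 - 3*u^2*w^2) + h^2*w^3

def Pf (x y s : K) : K :=
  -2*s^2*x + 3*s*y^2 - 3*s^3*y

def xf (h u v : K) : K := u^3 + h*v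

def yf (h u w : K) : K := -u^2 + h*w

def Gf (h u v w : K) : K :=
  h - Pf (xf h u v) (yf h u w) (Sf h u v w)

theorem map_Sf (f : Φ) (h u v w : K) :
    f (Sf h u v w) = Sf (f h) (f u) (f v) (f w) := by
  simp [Sf, map_ofNat]

theorem map_Pf (f : Φ) (x y s : K) :
    f (Pf x y s) = Pf (f x) (f y) (f s) := by
  simp [Pf, map_ofNat]

theorem map_xf (f : Φ) (h u v : K) :
    f (xf h u v) = xf (f h) (f u) (f v) := by
  simp [xf]

theorem map_yf (f : Φ) (h u w : K) :
    f (yf h u w) = yf (f h) (f u) (f w) := by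
  simp [yf]

theorem map_Gf (f : Φ) (h u v w : K) :
    f (Gf h u v w) = Gf (f h) (f u) (f v) (f w) := by
  simp [Gf, map_Pf, map_xf, map_yf, map_Sf]

theorem xf_sq_add_yf_cube (h u v w : K) :
    (xf h u v)^2 + (yf h u w)^3 = h * Sf h u v w := by
  simp only [xf, yf, Sf]; ring

theorem Gf_mul_Sf (h u v w : K) :
    Gf h u v w * Sf h u v w =
      (xf h u v + (Sf h u v w)^3)^2 + (yf h u w - (Sf h u v w)^2)^3 := by
  have e := xf_sq_add_yf_cube h u v w
  simp only [Gf, Pf]
  linear_combination (-1 : K) * e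

end Claimed.Agent.R019
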