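import Claimed.Agent.R019.Defs

set_option autoImplicit false

namespace Claimed.Agent.R019.H19

open Claimed.Agent.R019

variable {K L : Type*} [CommRing K] [CommRing L]
variable {Φ : Type*} [FunLike Φ K L] [RingHomClass Φ K L]

def af (x y s : K) : K := 2*s^2*y^2 + (3*s*y - 3*s^3)*x
def e1 (x s : K) : K := 2*s^3 + x
def e2 (y s : K) : K := 3*s^2*y - 3*s^4 - y^2
def q2 (x y s : K) : K :=
  ((af x y s)^2 + y) + 2*s^2*(y * e1 x s + af x y s * e2 y s)
    - (3*s*y - 3*s^3)*(af x y s * e1 x s - e2 y s)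
def q1 (x y s : K) : K := e1 x s - af x y s * q2 x y s

def Ug (x y s h T : K) : K := af x y s + h * T
def Wg (x y s h T : K) : K := q2 x y s + 2 * af x y s * T + h * T^2
def Vg (x y s h T : K) : K :=
  q1 x y s - 3 * (af x y s)^2 * T - 3 * af x y s * h * T^2 - h^2 * T^3

def s0 (X Y : K) : K := X^2 + Y^3
def x0 (X Y : K) : K := X - (s0 X Y)^3
def y0 (X Y : K) : K := Y + (s0 X Y)^2
def Hf (X Y : K) : K := 1 + Pf (x0 X Y) (y0 X Y) (s0 X Y)
def Uf (X Y T : K) : K := Ug (x0 X Y) (y0 X Y) (s0 X Y) (Hf X Y) T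
def Vf (X Y T : K) : K := Vg (x0 X Y) (y0 X Y) (s0 X Y) (Hf X Y) T
def Wf (X Y T : K) : K := Wg (x0 X Y) (y0 X Y) (s0 X Y) (Hf X Y) T

def Xf (h u v w : K) : K := xf h u v + (Sf h u v w)^3
def Yf (h u v w : K) : K := yf h u w - (Sf h u v w)^2
def Tg (h u v w y s : K) : K :=
  u - 2*s^2*(-2*u^2*w + h*w^2 - u*v) - (3*s*y - 3*s^3)*(v + u*w)
def Tf (h u v w : K) : K := Tg h u v w (yf h u w) (Sf h u v w)

theorem map_Hf (f : Φ) (X Y : K) : f (Hf X Y) = Hf (f X) (f Y) := by
  simp [Hf, map_Pf, x0, y0, s0]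

theorem map_Uf (f : Φ) (X Y T : K) : f (Uf X Y T) = Uf (f X) (f Y) (f T) := by
  simp [Uf, Ug, af, map_Hf, x0, y0, s0, map_ofNat]

theorem map_Vf (f : Φ) (X Y T : K) : f (Vf X Y T) = Vf (f X) (f Y) (f T) := by
  simp [Vf, Vg, q1, q2, e1, e2, af, map_Hf, x0, y0, s0, map_ofNat]

theorem map_Wf (f : Φ) (X Y T : K) : f (Wf X Y T) = Wf (f X) (f Y) (f T) := by
  simp [Wf, Wg, q2, e1, e2, af, map_Hf, x0, y0, s0, map_ofNat]

theorem map_Xf (f : Φ) (h u v w : K) : f (Xf h u v w) = Xf (f h) (f u) (f v) (f w) := by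
  simp [Xf, map_xf, map_Sf]

theorem map_Yf (f : Φ) (h u v w : K) : f (Yf h u v w) = Yf (f h) (f u) (f v) (f w) := by
  simp [Yf, map_yf, map_Sf]

theorem map_Tf (f : Φ) (h u v w : K) : f (Tf h u v w) = Tf (f h) (f u) (f v) (f w) := by
  simp [Tf, Tg, map_yf, map_Sf, map_ofNat]

section core

variable (x y s h : K) (r1 : h * s = x^2 + y^3) (r2 : h = 1 + Pf x y s)

include r1 r2

theorem a_mul_y : af x y s * y = -x + h * e1 x s := by
  simp only [Pf] at r2
  simp only [af, e1]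
  linear_combination (-2*s^2) * r1 + (-x) * r2

theorem a_mul_x : af x y s * x = y^2 + h * e2 y s := by
  simp only [Pf] at r2
  simp only [af, e2]
  linear_combination (-(3*s*y - 3*s^3)) * r1 + (y^2) * r2

theorem y_add_a_sq : y + (af x y s)^2 = h * q2 x y s := by
  have hy := a_mul_y x y s h r1 r2
  have hx := a_mul_x x y s h r1 r2
  have h1 : y * ((af x y s)^2 + y) = h * (af x y s * e1 x s - e2 y s) := by
    linear_combination (af x y s) * hy - hx
  have h2 : x * ((af x y s)^2 + y) = h * (y * e1 x s + af x y s * e2 y s) := by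
    linear_combination (af x y s) * hx + y * hy
  simp only [Pf] at r2
  simp only [q2]
  linear_combination (-((af x y s)^2 + y)) * r2 + (2*s^2) * h2 - (3*s*y - 3*s^3) * h1

theorem x_sub_a_cube : x - (af x y s)^3 = h * q1 x y s := by
  have hy := a_mul_y x y s h r1 r2
  have h2 := y_add_a_sq x y s h r1 r2
  simp only [q1]
  linear_combination (-(af x y s)) * h2 + hy

theorem xf_g (T : K) : xf h (Ug x y s h T) (Vg x y s h T) = x := by
  have h1 := x_sub_a_cube x y s h r1 r2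
  simp only [xf, Ug, Vg]
  linear_combination (-1 : K) * h1

theorem yf_g (T : K) : yf h (Ug x y s h T) (Wg x y s h T) = y := by
  have h2 := y_add_a_sq x y s h r1 r2
  simp only [yf, Ug, Wg]
  linear_combination (-1 : K) * h2

end core

theorem h_mul_Tf (h u v w : K) :
    h * Tf h u v w = u * Gf h u v w - af (xf h u v) (yf h u w) (Sf h u v w) := by
  simp only [Tf, Gf]
  generalize Sf h u v w = s
  simp only [Tg, xf, yf, Pf, af]
  ring

theorem r1_T (X Y : K) : Hf X Y * s0 X Y = (x0 X Y)^2 + (y0 X Y)^3 := by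
  simp only [Hf, x0, y0]
  have hs : s0 X Y = X^2 + Y^3 := rfl
  generalize s0 X Y = s at *
  simp only [Pf]
  linear_combination hs

section Tside

variable (X Y T : K) (hreg : ∀ z : K, Hf X Y * z = 0 → z = 0)

theorem xf_T : xf (Hf X Y) (Uf X Y T) (Vf X Y T) = x0 X Y :=
  xf_g _ _ _ _ (r1_T X Y) rfl T

theorem yf_T : yf (Hf X Y) (Uf X Y T) (Wf X Y T) = y0 X Y :=
  yf_g _ _ _ _ (r1_T X Y) rfl T

include hreg

theorem Sf_T : Sf (Hf X Y) (Uf X Y T) (Vf X Y T) (Wf X Y T) = s0 X Y := by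
  have e := xf_sq_add_yf_cube (Hf X Y) (Uf X Y T) (Vf X Y T) (Wf X Y T)
  rw [xf_T, yf_T, ← r1_T] at e
  have := hreg (Sf (Hf X Y) (Uf X Y T) (Vf X Y T) (Wf X Y T) - s0 X Y) (by
    linear_combination (-1 : K) * e)
  linear_combination this

theorem Gf_T : Gf (Hf X Y) (Uf X Y T) (Vf X Y T) (Wf X Y T) = 1 := by
  simp only [Gf]
  rw [xf_T, yf_T, Sf_T X Y T hreg]
  simp only [Hf]
  ring

theorem Xf_T : Xf (Hf X Y) (Uf X Y T) (Vf X Y T) (Wf X Y T) = X := by
  simp only [Xf]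
  rw [xf_T, Sf_T X Y T hreg]
  simp only [x0]
  ring

theorem Yf_T : Yf (Hf X Y) (Uf X Y T) (Vf X Y T) (Wf X Y T) = Y := by
  simp only [Yf]
  rw [yf_T, Sf_T X Y T hreg]
  simp only [y0]
  ring

theorem Tf_T : Tf (Hf X Y) (Uf X Y T) (Vf X Y T) (Wf X Y T) = T := by
  have e := h_mul_Tf (Hf X Y) (Uf X Y T) (Vf X Y T) (Wf X Y T)
  rw [xf_T, yf_T, Sf_T X Y T hreg, Gf_T X Y T hreg] at e
  have := hreg (Tf (Hf X Y) (Uf X Y T) (Vf X Y T) (Wf X Y T) - T) (by
    have hU : Uf X Y T = af (x0 X Y) (y0 X Y) (s0 X Y) + Hf X Y * T := rfl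
    linear_combination e + hU)
  linear_combination this

end Tside

section Bside

variable (h u v w : K) (hG : Gf h u v w = 1)

include hG

theorem s0_B : s0 (Xf h u v w) (Yf h u v w) = Sf h u v w := by
  have e := Gf_mul_Sf h u v w
  rw [hG] at e
  simp only [s0, Xf, Yf]
  linear_combination (-1 : K) * e

theorem x0_B : x0 (Xf h u v w) (Yf h u v w) = xf h u v := by
  simp only [x0]
  rw [s0_B h u v w hG]
  simp only [Xf]
  ring

theorem y0_B : y0 (Xf h u v w) (Yf h u v w) = yf h u w := by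
  simp only [y0]
  rw [s0_B h u v w hG]
  simp only [Yf]
  ring

theorem Hf_B : Hf (Xf h u v w) (Yf h u v w) = h := by
  simp only [Hf]
  rw [s0_B h u v w hG, x0_B h u v w hG, y0_B h u v w hG]
  simp only [Gf] at hG
  linear_combination (-1 : K) * hG

theorem Uf_B : Uf (Xf h u v w) (Yf h u v w) (Tf h u v w) = u := by
  simp only [Uf]
  rw [s0_B h u v w hG, x0_B h u v w hG, y0_B h u v w hG, Hf_B h u v w hG]
  have e := h_mul_Tf h u v w
  rw [hG] at e
  simp only [Ug]
  linear_combination e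

variable (hreg : ∀ z : K, h * z = 0 → z = 0)

include hreg

theorem Vf_B : Vf (Xf h u v w) (Yf h u v w) (Tf h u v w) = v := by
  have hU := Uf_B h u v w hG
  simp only [Vf]
  simp only [Uf] at hU
  rw [s0_B h u v w hG, x0_B h u v w hG, y0_B h u v w hG, Hf_B h u v w hG] at hU ⊢
  have r2 : h = 1 + Pf (xf h u v) (yf h u w) (Sf h u v w) := by
    simp only [Gf] at hG
    linear_combination hG
  have e := xf_g _ _ _ _ (xf_sq_add_yf_cube h u v w).symm r2 (Tf h u v w)
  rw [hU] at e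
  have := hreg (Vg (xf h u v) (yf h u w) (Sf h u v w) h (Tf h u v w) - v) (by
    simp only [xf] at e ⊢
    linear_combination e)
  linear_combination this

theorem Wf_B : Wf (Xf h u v w) (Yf h u v w) (Tf h u v w) = w := by
  have hU := Uf_B h u v w hG
  simp only [Wf]
  simp only [Uf] at hU
  rw [s0_B h u v w hG, x0_B h u v w hG, y0_B h u v w hG, Hf_B h u v w hG] at hU ⊢
  have r2 : h = 1 + Pf (xf h u v) (yf h u w) (Sf h u v w) := by
    simp only [Gf] at hG
    linear_combination hG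
  have e := yf_g _ _ _ _ (xf_sq_add_yf_cube h u v w).symm r2 (Tf h u v w)
  rw [hU] at e
  have := hreg (Wg (xf h u v) (yf h u w) (Sf h u v w) h (Tf h u v w) - w) (by
    simp only [yf] at e ⊢
    linear_combination e)
  linear_combination this

end Bside

end Claimed.Agent.R019.H19
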