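import Claimed.Agent.R019.Defs
import Mathlib.Algebra.MvPolynomial.PDeriv
import Mathlib.Tactic

set_option autoImplicit false

namespace Claimed.Agent.R019.H19

open Claimed.Agent.R019 MvPolynomial

theorem ev_D_Gf {A : Type*} [CommRing A] [Algebra ℂ A] (D : Derivation ℂ A A) (ev : A →+* ℂ)
    (h u v w : A) (h0 : ev h = 2) (h1 : ev u = 0) (h2 : ev v = -1/2) (h3 : ev w = 1/2) :
    ev (D (Gf h u v w)) = 0 := by
  have two : D (2 : A) = 0 := by
    have := D.map_natCast 2
    simpa using this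
  have three : D (3 : A) = 0 := by
    have := D.map_natCast 3
    simpa using this
  simp only [Gf, Pf, xf, yf, Sf, map_add, map_sub, map_neg, map_mul, map_pow, Derivation.leibniz,
    Derivation.leibniz_pow, smul_eq_mul, two, three, h0, h1, h2, h3, map_ofNat, nsmul_eq_mul,
    map_natCast, map_zero]
  ring

theorem not_coord {σ : Type*} (i0 i1 i2 i3 : σ) (a : σ → ℂ) (h0 : a i0 = 2) (h1 : a i1 = 0)
    (h2 : a i2 = -1/2) (h3 : a i3 = 1/2) :
    ¬ ∃ (e : MvPolynomial σ ℂ ≃ₐ[ℂ] MvPolynomial σ ℂ) (j : σ),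
      e (X j) = Gf (X i0) (X i1) (X i2) (X i3) - 1 := by
  rintro ⟨e, j, he⟩
  have h : (X j : MvPolynomial σ ℂ) =
      Gf (e.symm (X i0)) (e.symm (X i1)) (e.symm (X i2)) (e.symm (X i3)) - 1 := by
    have := congrArg e.symm he
    rw [AlgEquiv.symm_apply_apply] at this
    rw [this, map_sub, map_one, map_Gf]
  have hd := congrArg (pderiv j) h
  rw [pderiv_X_self, map_sub, Derivation.map_one_eq_zero, sub_zero] at hd
  have hev := congrArg ((eval a).comp (e : MvPolynomial σ ℂ →+* MvPolynomial σ ℂ)) hd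
  rw [ev_D_Gf (pderiv j) ((eval a).comp (e : MvPolynomial σ ℂ →+* MvPolynomial σ ℂ))
    _ _ _ _ (by simp [h0]) (by simp [h1]) (by simp [h2]) (by simp [h3])] at hev
  simp at hev

end Claimed.Agent.R019.H19
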